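import Crest.Agent.X212.Lt56.B
import Crest.Agent.X212.Cqn41.Nr0
import Crest.Agent.X212.Mp86.St

/-! Row 212, NTR-LT (helper56): the variation of a free inner coordinate. -/

set_option autoImplicit false
set_option linter.unusedSectionVars false
noncomputable section
open scoped Manifold ContDiff Topology InnerProductSpace
open MeasureTheory Set Function Filter

namespace Crest.Agent.X212.Lt56
open An M Nd18 Mod61 Nk89 Cht98 Rf65 Pte3 Prm93 Sob92 Qab60 Nr41 G75 Ins26 Jb7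
open An.Job (isClopen_un)
open Mp86.St (hp_some piece_hp eq_hp)

section alg
variable {α V : Type} [Fintype α] [NormedAddCommGroup V] [InnerProductSpace ℝ V]

/-- the coefficients along a vector of norm four -/
def co (v : V) : Fm α V →L[ℝ] Fm α ℝ :=
  (PiLp.continuousLinearEquiv 2 ℝ fun _ : α => ℝ).symm.toContinuousLinearMap ∘L
    ContinuousLinearMap.pi fun i => (16 : ℝ)⁻¹ • innerSL ℝ v ∘L PiLp.proj 2 (fun _ => V) i

theorem co_apply (v : V) (w : Fm α V) (i : α) : co v w i = 16⁻¹ * ⟪v, w i⟫_ℝ := rfl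

theorem co_tn {v : V} (h : ‖v‖ ^ 2 = 16) (u : Fm α ℝ) : co v (tn u v) = u := PiLp.ext fun i => by
  rw [co_apply, show tn u v i = u i • v from rfl, real_inner_smul_right,
    real_inner_self_eq_norm_sq, h]
  ring

theorem der_tn {g : ℝ → Fm α ℝ} {u : Fm α ℝ} (h : HasDerivAt g u 0) (v : V) {w : Fm α V}
    (k : HasDerivAt (fun s => tn (g s) v) w 0) : w = tn u v := PiLp.ext fun i =>
  (der_ev k (PiLp.proj 2 (fun _ => V) i) (.of_forall fun _ => rfl)).unique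
    ((der_ev h (PiLp.proj 2 (fun _ => ℝ) i) (.of_forall fun _ => rfl)).smul_const v)

theorem sa_co {Z : Mf 4} {f : Z.M → V} {g : Z.M → Fm α V} {z : Z.M} (hf : Wz78.SA Z.I f z)
    (hg : Wz78.SA Z.I g z) : Wz78.SA Z.I (fun y => co (f y) (g y)) z :=
  have : ContDiff ℝ ∞ fun p : V × Fm α V => co p.1 p.2 := (contDiff_piLp 2).2 fun i => by
    simp only [co_apply]
    exact contDiff_const.mul (contDiff_fst.inner ℝ ((contDiff_piLp 2).1 contDiff_snd i))
  have k := this.comp_contMDiffAt (hf.prodMk_space hg)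
  k

end alg

variable {κ lam : Type} [Fintype κ] [Fintype lam] [DecidableEq lam] {Lm : LM κ lam}
  {S : Scene Lm} {D : S.Dat} {i : S.L} {Wi : Type} {r n : ℕ}
  {J : Job Wi (D.Λ i) (S.A ⊕ Unit) S.ls r n} {c : S.M.Cl} {δ : ℝ} {σ : Cel (S.A ⊕ Unit)} {R : S.A}
  {b : Bp J c} {E : ER σ R b δ} {q : Wi →₀ ℝ} {y : J.Obc c} {x : Pnt E.o r} {ψ : E.K}
  {ξ : (D.W.Z c).M → E.o.m.A} (C : Cr q y x ψ ξ)
include C

theorem pcs (d : Bool) : S.M.sys.Piece c.1 (hp R d) := C.one ▸ piece_hp d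

theorem out {z : (D.W.Z c).M} (hz : z ∉ oI D.W c R) : z ∈ D.W.un c {hp R true} :=
  let ⟨π, h1, h2⟩ := Cyl58.exists_pc D.W.toCaps z
  (eq_hp (C.one ▸ h1)).elim (fun e => mem_biUnion e h2) fun e : π = hp R false =>
    (hz (by subst e; exact h2)).elim

theorem not_out {j : S.A ⊕ Unit} (hj : Fi J R y.s σ j) : j ∉ (pO J c (shX S {R}) σ R).V := by
  obtain ⟨-, ⟨e, h1, h2⟩, -⟩ := hj
  obtain ⟨_, _, _, _, _, _, g⟩ := C.jr
  rintro ⟨-, -, k | ⟨π, rfl, a, k1, k2⟩⟩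
  · rw [g.gx.hd] at h2
    rcases j with j | j
    · refine k j (by_contra fun k' => ?_) rfl
      simp [k'] at h2
    · simp at h2
  · obtain rfl := Option.some.inj (h2.symm.trans k2)
    obtain ⟨_, hx⟩ := (S.M.sys.w e).ne true
    have := S.M.con
    have := (pcs C false).unique c.2 (pcs C true) (h1.2.1 hx.1) (k1.2.1 hx.1)
    simpa [hp] using congrFun this R

theorem mem_V {j : S.A ⊕ Unit} (hj : Fi J R y.s σ j) : j ∈ (pW J c (shX S {R}) σ R).V :=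
  let ⟨h0, ⟨e, h1, h2⟩, _⟩ := hj
  ⟨h0, fun _ k k' => (pcs C false).not_inn _ k' (Option.some.inj (h2.symm.trans k) ▸ h1),
    .inr ⟨_, .inr rfl, e, h1, h2⟩⟩

omit C in
/-- the direction of the coordinate `j` -/
def dir (p : Prt S.A (S.A ⊕ Unit) S.ls) (U : Type) (j : S.A ⊕ Unit) : Tq p U :=
  (fun a => if a.1 = j then 1 else 0, 0)

theorem θ_dir {j : S.A ⊕ Unit} (hj : Fi J R y.s σ j) (s : ℝ) :
    b.θ _ _ (x.t + s • dir _ _ j) = update y.s j (y.s j + s) := funext fun a => by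
  rw [← C.θ]
  by_cases k : a ∈ (pW J c (shX S {R}) σ R).V
  · by_cases e : a = j
    · subst e; simp [θ_V k, dir]
    · simp [θ_V k, dir, e]
  · rw [update_of_ne fun e : a = j => k (e ▸ mem_V C hj), θ_off k, θ_off k]

theorem lt_at {f : E.C → E.Y} (hf : E.Map q f) : Lt f C := fun j hj => by
  have H := C.cs
  obtain ⟨_, _, _, _, _, _, g⟩ := C.jr
  have cl : IsClopen (oI D.W c R) := Cyl58.isClopen_pc _ (pcs C false)
  have ab : Ab (J.B c) (J.G c (b.θ _ _ x.t)) (oI D.W c R) x.cfg ξ := C.θ.symm ▸ C.ins.ab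
  obtain ⟨e, he⟩ : ∃ e, e = Ld f x ψ (vv E (dir _ _ j) 8, 0) := ⟨_, rfl⟩
  obtain ⟨r1, r2, r3, r4⟩ := rows H x (τ := dir _ _ j) rfl (p₀ := pO J c (shX S {R}) σ R)
    (C.an.loc.pok σ C.an.mem c _ _ _ (fun _ k => k ▸ pcs C true) Subset.rfl)
    (fun z k => ab.z z (by_contra fun k' => k (out C k'))) (fun s a k => by
      rw [θ_dir C hj, C.θ, update_of_ne fun e : a = j => not_out C hj (e ▸ k)]) (fun _ k => .inl k) hf ψ he
  have hs : vC e ∈ Mod61.Hs (FW σ R b δ).F0.toPre E.o.P2 := he ▸ vC_hs H x (τ := dir _ _ j) rfl hf ψ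
  have d := he ▸ der_paC H x hf.sm ψ (τ := dir _ _ j)
  have v : ∀ᶠ s : ℝ in 𝓝 0, ∀ z ∈ oI D.W c R,
      (FW σ R b δ).F0.val 8 E.o.Pm (f (x.pt 8 + s • vv E (dir _ _ j) 8, ψ)).1.1 z = 0 ∧
      vC (f (x.pt 8 + s • vv E (dir _ _ j) 8, ψ)) z =
        tn (aE J c q (update y.s j (y.s j + s)) (xf J c y.s x.cfg ξ) z) (ξ z) := by
    have v1 : ∀ᶠ s : ℝ in 𝓝 0, y.s j + s ∈ Ioo (0 : ℝ) 1 :=
      (by fun_prop : Continuous fun s : ℝ => y.s j + s).continuousAt.eventually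
        (isOpen_Ioo.mem_nhds (by simpa using hj.2.2))
    filter_upwards [ev_Q H x (τ := dir _ _ j), v1] with s h1 h2 z hz
    obtain ⟨a1, a2⟩ := pa_ab H x rfl h1 ab
    have pm : Fin37.Pm J c (b.θ _ _ (x.t + s • dir _ _ j)) :=
      ⟨σ, H.mem, ⟨(H.ov H.hb h1).1.1, fun a => by
        rw [θ_dir C hj]
        rcases eq_or_ne a j with rfl | k
        exacts [update_self a _ y.s ▸ Ioo_subset_Icc_self h2,
          (update_of_ne k _ y.s).symm ▸ C.sol.cell.2 a]⟩, (H.ov H.hb h1).2⟩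
    obtain ⟨k1, k2⟩ := ab_eq (q := q) H.ok (fun a => g.gx.nil a (by simp)) C.an.loc.bas cl pm a1 hz
    obtain ⟨u1, u2, -⟩ := tot_ev (b := b) (δ := δ) (t := x.t + s • dir _ (UR J c R) j) (q := q)
      (pa H x rfl s h1).cfg
    have m : z ∈ D.W.un c {hp R true, hp R false} := mem_biUnion (.inr rfl) hz
    rw [← pa_pt H x rfl h1 (by norm_num)]
    refine ⟨(congrFun (hf.e _ ψ).D z).trans ((indicator_of_mem m _).trans ((u1 z).trans k1)),
      (congrFun (hf.e _ ψ).C z).trans ((indicator_of_mem m _).trans ((u2 z).trans (k2.trans ?_)))⟩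
    rw [a2, θ_dir C hj, C.θ]
    rfl
  have o : ∀ z ∉ oI D.W c R, vC e z = 0 := fun z k => (r1 z (out C k)).2
  have d1 := fun z hz => der_ev d ((FW σ R b δ).F0.ev 8 E.o.P2 z ∘L .fst ℝ _ _ ∘L .snd ℝ _ _ ∘L pY E)
    (v.mono fun _ k => (k z hz).2)
  have d2 : ∀ z ∈ oI D.W c R, HasDerivAt (fun s => aE J c q (update y.s j (y.s j + s))
      (xf J c y.s x.cfg ξ) z) (co (ξ z) (vC e z)) 0 := fun z hz => der_ev (d1 z hz) (co (ξ z))
    (.of_forall fun _ => co_tn (Abel74.norm_sq E.o.ok (ab.rd.mem z hz) (ab.rd.sq z hz)) _)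
  refine ⟨fun z => co (ξ z) (vC e z), ⟨fun z => ?_, fun z k => by rw [o z k, map_zero], fun z hz => ?_⟩,
    e, ⟨_, he.symm⟩, ⟨fun z _ => ?_, o, r2, fun l hl => ⟨r4 l ⟨trivial, ?_⟩, congrFun r3 l⟩⟩, hs,
    fun z => ?_⟩
  · exact sa_co (Qa50.rd_sm ab.rd cl.1 z) (Cb.sm (Hs_cb H.F.sup hs) z)
  · exact ((show HasDerivAt _ _ (y.s j - y.s j) by rw [sub_self]; exact d2 z hz).comp_sub_const
      (y.s j) (y.s j)).congr_of_eventuallyEq (.of_forall fun t => congrArg (fun v : ℝ =>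
        aE J c q (update y.s j v) (xf J c y.s x.cfg ξ) z) (add_sub_cancel _ t).symm)
  · by_cases k : z ∈ oI D.W c R
    · exact der_cst d ((FW σ R b δ).F0.ev 8 E.o.Pm z ∘L .fst ℝ _ _ ∘L pY E)
        (v.mono fun _ a => (a z k).1)
    · exact (r1 z (out C k)).1
  · obtain ⟨π, h1, h2⟩ := CS.exists_pc H.pok (C.an.loc.nb l) ((H.ok.nb l).2.sub ⟨(0, 0), rfl⟩)
      (H.pok.nb l l.2)
    rcases h1 with rfl | rfl
    exacts [h2.trans (subset_biUnion_of_mem (mem_singleton _)), (hl h2).elim]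
  · by_cases k : z ∈ oI D.W c R
    · exact der_tn (d2 z k) _ (d1 z k)
    · rw [o z k, ab.rd.off z k]; exact PiLp.ext fun _ => (smul_zero _).symm

omit C in
variable (Lm) in
/-- **LEAF LT** -/
theorem lt : All Lm fun C f => Lt f C := fun _ _ _ _ _ _ _ _ _ _ =>
  ⟨1, one_pos, fun _ _ _ _ _ _ _ _ _ _ _ C _ hf => lt_at C hf⟩

end Crest.Agent.X212.Lt56
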