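import Crest.Agent.X212.Ncm43.Cmp
import Crest.Agent.X212.Cay24.Qa
import Crest.Agent.X212.Nk89.Gwc

/-! Row 212, NTR-LT (helper56): change of the background along a line of parameters. -/

set_option autoImplicit false
set_option linter.unusedSectionVars false
noncomputable section
open scoped Manifold ContDiff Topology InnerProductSpace
open MeasureTheory Set Function Filter
open Crest.Agent.R208.F (Ext)

namespace Crest.Agent.X212.Lt56
open An Wz78 Pj41 Num57 Met55 Qab60 Cay24 Mod61 Nk89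
open Nd18 (YC cy)
open Abel74 (fm)
open Loc8 (Rd)
open Sob92 (dv)

variable {E : Type} [NormedAddCommGroup E] [NormedSpace ℝ E] [FiniteDimensional ℝ E]
  [MeasurableSpace E] [BorelSpace E]
  {HM : Type} [TopologicalSpace HM] {I : ModelWithCorners ℝ E HM} [I.Boundaryless]
  {M : Type} [TopologicalSpace M] [ChartedSpace HM M] [IsManifold I ∞ M] [T2Space M]
  [MeasurableSpace M] [BorelSpace M] [SecondCountableTopology M]
  {ι : Type} [Fintype ι] {lam : Type} [Fintype lam]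

/-- two slices in one gauge: the reference does not move on the end -/
theorem b_key {κ : Type} [Fintype κ] {T : Type} [NormedAddCommGroup T] [NormedSpace ℝ T]
    {𝔉 : Fam I M (Option κ) lam T} {P : End 𝔉} {o : Ref 𝔉} {ψ : M → ℝ} {δ R₀ R : ℝ} (k : 𝔉.OK)
    (hP : P.OK ψ δ R₀) (hR : R₀ ≤ R) (hl : P.Lit o R) {β : YC P.Y.M κ lam}
    {v : P.Y.M × ℝ → CL β.m.V o.m.V} {t t' : T} (ht : t ∈ 𝔉.Q) (ht' : t' ∈ 𝔉.Q)
    (mv : Mod61.EqOn P.D.B P.D.Z univ (cy β) (cy (P.sl o (R + 1) t)) v 1)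
    (mv' : Mod61.EqOn P.D.B P.D.Z univ (cy β) (cy (P.sl o (R + 1) t')) v 1) :
    ∀ x ∈ P.U R, o.b (t - t') x = 0 := fun x hx => by
  obtain ⟨z, hz, rfl⟩ := hP.exists_ψ hx
  have hx' : P.K.ψ z ∈ P.U R₀ := ⟨hx.1, hR.trans_lt hx.2⟩
  have hW : ∀ t ∈ 𝔉.Q, ∀ a, o.W t 0 a (P.K.ψ z) = o.A0 a (P.K.ψ z) + opL (o.b t (P.K.ψ z) a) :=
    fun t ht a => by
      have := (o.connA k.B t).cc.proj a (P.K.ψ z)
      simp only [Ref.W, Md.addC, Fam.W0, (hP.S t ht _ hx' _ _).1, (hP.cf t ht _ hx').1,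
        (hP.cf t ht _ hx').2, Pi.zero_apply, zero_smul, Finset.sum_const_zero, add_zero, map_zero,
        PiLp.zero_apply]
      exact this
  ext a : 1
  have e : ∀ t ∈ 𝔉.Q, Mod61.EqOn P.D.B P.D.Z univ (cy β) (cy (P.sl o (R + 1) t)) v 1 →
      P.D.Z.D a v z + (∑ b, 𝔉.B.P a b (P.K.ψ z) • o.A0 b (P.K.ψ z) +
      opL (o.b t (P.K.ψ z) a)) ∘L v z - v z ∘L β.W a z.1 = 0 := fun t ht mv => by
    refine Eq.trans ?_ (mv.W z trivial a)
    rw [← o.b_proj k.B t, map_sum, ← Finset.sum_add_distrib]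
    refine congrArg (fun w : CL o.m.V o.m.V => P.D.Z.D a v z + w ∘L v z - v z ∘L β.W a z.1) ?_
    refine Finset.sum_congr rfl fun b _ => ?_
    rw [map_smul, ← smul_add, ← hW t ht, (hl.at ht hz).2.2.2.1, (k.B.pr _).symm,
      P.K.P b a z (hP.src (hR.trans hz.le))]
    rfl
  have e1 : opL (o.b (t - t') (P.K.ψ z) a) ∘L v z = 0 := by
    rw [← sub_self (0 : CL β.m.V o.m.V)]
    conv_rhs => rw [← e t ht mv]; arg 2; rw [e t ht mv, ← e t' ht' mv']
    simp only [map_sub, Pi.sub_apply, PiLp.sub_apply, ContinuousLinearMap.sub_comp,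
      ContinuousLinearMap.add_comp]
    abel
  have e2 : v z ∘L trn (v z) = o.m.p (P.K.ψ z) :=
    (mv.m.uu' z trivial).trans (hl.at ht hz).1.symm
  refine Wz78.opL_inj ?_
  rw [← Wz78.g_p' o.ok (o.b_mem _ _ a), ← e2, ContinuousLinearMap.mul_def,
    ← ContinuousLinearMap.comp_assoc, e1]
  simp

variable {r : ℕ} {B : Base M ι lam} {G G' : Geo I M ι lam} {Ω : Set M}

/-- the configuration for the background `G'` -/
@[reducible] def ch (B : Base M ι lam) (G G' : Geo I M ι lam) (c : Cfg M ι lam r) : Cfg M ι lam r :=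
  ⟨c.m, chA B c.m G G' c.W, c.Φ, c.z⟩

/-- `Cay24.trnStmt` with the connection named -/
theorem trn_ab {c : Cfg M ι lam r} {ξ : M → c.m.A} (hB : B.OK I) (hG : G.OK B) (hG' : G'.OK B)
    (h : Ab B G Ω c ξ) : Ab B G' Ω (ch B G G' c) ξ ∧
      fm G'.F c.m (chA B c.m G G' c.W) ξ = fm G.F c.m c.W ξ := by
  have H := h.adm.ok
  have C := h.adm.conn
  have R := h.rd
  have C' := isConn_chg hB hG hG' H C
  have hD : ∀ a (f : M → ℝ) x, dv I (G'.F.e a) f x =
      ∑ l, trS G.F G'.F x a l * dv I (G.F.e l) f x :=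
    fun a f x => congrFun ((trS_mix G.F G'.F).D a f) x
  obtain ⟨Θ, hΘ⟩ : ∃ Θ : c.m.Cn, Θ = fun a x => ∑ b, ∑ k, cfS G.F G'.F x a b k •
    (c.m.ρ b x * c.m.ρ k x) + laS B G G' x a • (c.m.J * c.m.p x) := ⟨_, rfl⟩
  simp only [add_assoc, ← congrFun₂ hΘ] at C'
  have h0 : chA B c.m G G' c.W = fun a x => ∑ b, trS G.F G'.F x a b • c.W b x + Θ a x := by
    funext a x; rw [hΘ]; exact add_assoc _ _ _
  have h1 : ∀ a, ∀ x ∈ Ω, Commute (opL (ξ x)) (Θ a x) := fun a x hx => by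
    have g := R.mem x hx
    rw [hΘ]
    exact (Commute.sum_right _ _ _ fun b _ => Commute.sum_right _ _ _ fun k _ =>
      (Commute.mul_right (g_ρ g b).symm (g_ρ g k).symm).smul_right _).add_right
      ((Commute.mul_right (g_J g).symm ((g_p' H g).trans (g_p g).symm)).smul_right _)
  have h2 : ∀ a, ∀ x ∈ Ω, Num57.tr (opL (ξ x) * Θ a x) = 0 := fun a x hx => by
    have g := R.mem x hx
    have : c.m.pg x (hsL (Θ a x)) = 0 := by
      simp only [hΘ, cfS_spin, map_add, map_smul, pg_Jp hB H, smul_zero, add_zero]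
      exact pg_spin fun b k => Spn45.dG_skew (glc hG) (glc hG') hD a b k x
    rw [Num57.tr, ← trE_eq, ← neg_eq_zero, ← inner_skw (g_skw g), ← pg_of_mem g, inner_pg, this,
      inner_zero_right]
  have R' : Rd G'.F c.m (fun a x => ∑ b, trS G.F G'.F x a b • c.W b x + Θ a x) Ω ξ :=
    ⟨⟨R.sm, R.mem, R.sq, fun x hx a => by
      have e : dv I (G'.F.e a) ξ x = ∑ l, trS G.F G'.F x a l • dv I (G.F.e l) ξ x :=
        congrFun ((trS_mix G.F G'.F).D a ξ) x
      have z : adc (Θ a x) (ξ x) = 0 := by rw [adc_apply, (h1 a x hx).eq, sub_self, map_zero]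
      have p := R.par x hx
      simp only [nab, Md.adW] at p ⊢
      rw [e, ← adcL_apply, map_add, map_sum, add_apply, adcL_apply, z, add_zero, _root_.sum_apply,
        ← Finset.sum_add_distrib]
      simp only [map_smul, smul_apply, adcL_apply, ← smul_add, p, smul_zero,
        Finset.sum_const_zero]⟩, R.op, R.off⟩
  unfold ch
  rw [h0]
  refine ⟨⟨⟨H, C', h.adm.sm, h.adm.pos, h.adm.z⟩, R', h.z⟩, funext fun x => ?_⟩
  by_cases hx : x ∈ Ω
  · have pa : ∀ {G : Geo I M ι lam} {W : c.m.Cn}, G.OK B → c.m.IsConn B G W → Rd G.F c.m W Ω ξ →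
        Pa I Ω (cn G.F W) (f0 E fun x => opL (ξ x)) := fun hG C R =>
      pa_cn _ (fun x _ a => by rw [hG.P]; exact C.cc.proj a x) (fun x => R.sm_opL) fun x => R.nE
    rw [fm_at hG' C' (R.mem x hx), fm_at hG C (R.mem x hx), Pi.smul_apply, Pi.smul_apply,
      c1_sub R.op ((Abel74.Red.co C).mono (subset_univ Ω)) ((Abel74.Red.co C').mono (subset_univ Ω))
        (pa hG C R) (pa hG' C' R') hx, Dr59.dM_congr (b := 0), Dr59.dM_zero, Pi.zero_apply, add_zero]
    refine mem_of_superset (R.op.mem_nhds hx) fun y hy => ?_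
    rw [cn_chg (F' := G'.F) fun a x => by rw [hG.P]; exact C.cc.proj a x]
    exact tg1_cn _ fun a => by rw [add_sub_cancel_left]; exact h2 a y hy
  · rw [R.fm_off hx, R'.fm_off hx]

/-- where the backgrounds agree nothing changes -/
theorem ceq_ch {c : Cfg M ι lam r} (hB : B.OK I) (hG : G.OK B) (h : Eqv71.Ad0 c B G)
    (a : Cht98.Agr G G' Ω) : CEq G.F c (ch B G G' c) Ω id (fun x b a => B.P b a x) B.l c.m.p 1 :=
  have e := Eqv71.ceq_refl hB hG h a.op
  ⟨e.m, fun x hx i => by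
    refine Eq.trans ?_ (e.W x hx i)
    congr 4
    funext j
    simp only [chA, id, (a.S hx _ _).1, a.cf hx, a.la hG hx, hG.P, h.conn.cc.proj, Pi.zero_apply,
      zero_smul, Finset.sum_const_zero, add_zero], e.Φ, e.z⟩

end Crest.Agent.X212.Lt56
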