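import Crest.Agent.X212.Lt56.A
import Crest.Agent.X212.Nt66.Ln
import Crest.Agent.X212.Qab60.Pur
import Crest.Agent.X212.Pte3.Sol

/-! Row 212, NTR-LT (helper56): the line of parameters in a chart. -/

set_option autoImplicit false
set_option linter.unusedSectionVars false
noncomputable section
open scoped Manifold ContDiff Topology InnerProductSpace
open MeasureTheory Set Function Filter

namespace Crest.Agent.X212.Lt56
open An M Nd18 Mod61 Nk89 Cht98 Rf65 Pte3 Prm93 Sob92 Qab60 Num57 Eqv71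
open An.Job (isClopen_un unc_of)
open Fin37 (Pm)
open Wrd81 (TmIn Bas)

section calc0
variable {Y V : Type} [NormedAddCommGroup Y] [NormedSpace ℝ Y] [NormedAddCommGroup V]
  [NormedSpace ℝ V] {F : ℝ → Y} {a : Y}

theorem der_ev (h : HasDerivAt F a 0) (L : Y →L[ℝ] V) {g : ℝ → V}
    (e : ∀ᶠ s in 𝓝 (0 : ℝ), L (F s) = g s) : HasDerivAt g (L a) 0 :=
  (L.hasFDerivAt.comp_hasDerivAt 0 h).congr_of_eventuallyEq (e.mono fun _ k => k.symm)

theorem der_cst (h : HasDerivAt F a 0) (L : Y →L[ℝ] V) {K : V}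
    (e : ∀ᶠ s in 𝓝 (0 : ℝ), L (F s) = K) : L a = 0 :=
  (der_ev h L e).unique (hasDerivAt_const 0 K)

end calc0

variable {Wi : Type} {X : Mf 4} {A κ lam : Type} [Fintype A] [Fintype κ] [Fintype lam]
  [DecidableEq lam] {M : Mark X A κ} {W : World M} {N : ML M lam} {Λ : Lns W N}
  {A' h : Type} [Fintype A'] [DecidableEq A'] [Fintype h] {r n : ℕ}
  {J : Job Wi Λ A' h r n} {c : M.Cl} {σ : Cel A'} {p : Prt A A' h} {U : Type} [Fintype U] {δ : ℝ}
  {b : Bp J c} {E : EC b p U δ} {q : Wi →₀ ℝ}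

/-- the equations at an abelian point (`JQ.pure` without the data `Q`) -/
theorem ab_eq (hJ : J.OK) (nl : ∀ a, Nl J a) (bas : ∀ w, Bas (J.tw w)) {R : A} {s : A' → ℝ}
    (cl : IsClopen (oI W c R)) (hs : Pm J c s) {x : Cg' W c lam r} {ξ : (W.Z c).M → x.m.A}
    (hA : Ab (J.B c) (J.G c s) (oI W c R) x ξ) {z : (W.Z c).M} (hz : z ∈ oI W c R) :
    x.eD (J.G c s) (J.τ c q s) z = 0 ∧
      x.eC (J.B c) (J.G c s) (J.τ c q s) z = tn (aE J c q s (xf J c s x ξ) z) (ξ z) := by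
  classical
  have hB : (J.B c).OK (W.Z c).I := Λ.B_ok _ _
  have hG : (J.G c s).OK (J.B c) := Λ.G_ok _ (Pm.memO hJ hs)
  have k := (Qa50.addStmt _ _ _ _ r _ _ _ x ξ hB hG cl hA).2.1 z hz
  suffices e : (J.τ c q s).D x z = 0 ∧ (J.τ c q s).C x z =
      tn (aF c J q.support q s (c2 (J.G c s).F (xf J c s x ξ)) z) (ξ z) from
    ⟨by rw [Cfg.eD, e.1, k.2, sub_zero], by
      rw [Cfg.eC, k.1, e.2]; exact PiLp.ext fun t => (sub_smul _ _ _).symm⟩
  obtain ⟨σ, h1, h2, h3⟩ := id hs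
  have g := fun w (k : TmIn (W.Z c).I univ (Fin37.tm J c w)) => Sep15.Gau.gau _ _ _ _ r n _ _ _ x ξ hB
    hG (tam_W Λ (Pm.memO hJ hs)).tm cl hA _ k (Nat75.bas_tm (bas w)) z hz
  have i : ∀ w, J.co w s ≠ 0 → TmIn (W.Z c).I univ (Fin37.tm J c w) := fun w k =>
    (hJ.tw_in h1 ⟨J.cl_dom h2, h3⟩ k).choose_spec.mono (subset_univ _)
  rw [Ink3.τ_nil c s (fun a => (nl a).1) fun a w => congrFun (nl a).2 w]
  refine ⟨Finset.sum_eq_zero fun w _ => ?_, PiLp.ext fun t => ?_⟩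
  · change q w • J.co w s • x.tD (J.B c) (J.G c s).F (Fin37.tm J c w) z = 0
    by_cases k : J.co w s = 0
    · rw [k, zero_smul, smul_zero]
    · rw [(g w (i w k)).1, smul_zero, smul_zero]
  · change (∑ w ∈ q.support, q w • J.co w s • x.tC (J.B c) (J.G c s).F (Fin37.tm J c w) z) t = _
    simp only [tn, aF, smF, wS, Finset.sum_filter, Finset.sum_apply, WithLp.ofLp_sum, Finset.sum_smul]
    refine Finset.sum_congr rfl fun w _ => ?_
    by_cases k : J.co w s = 0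
    · simp [k]
    · simp [(g w (i w k)).2, if_pos (i w k), tn, smul_smul, mul_assoc]

theorem W_ch (t : Tq p U) (α : (W.Z c).M → Fm (Option κ) E.o.m.A) : E.o.W t α =
    chA (J.B c) E.o.m (J.G c b.s) (J.G c (b.θ p U t)) (E.o.m.addC (E.o.A t) α) := by
  funext a z
  rw [W_apply]
  simp only [chA, Md.addC, smul_add, Finset.sum_add_distrib, Fam.W0]
  exact (add_right_comm _ _ _).trans (congrArg (· + _) (add_right_comm _ _ _))

variable (E) in
/-- the rows of the fields -/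
def pY : E.Y →L[ℝ] E.o.Y n (min r 1) 8 := .fst ℝ _ _

variable (E) in
/-- the rows of the cuts -/
def pK : E.Y →L[ℝ] E.K × (p.H → ℝ) := .snd ℝ _ _

variable (E) in
/-- the row of one cut -/
def pI (i : p.H) : E.K →L[ℝ] (J.cut c i).H (J.B c) E.o.m :=
  .proj (φ := fun i : p.H => (J.cut c i).H (J.B c) E.o.m) i

variable (H : CS σ E) (x : Pnt E.o r) {τ : Tq p U}
include H

theorem ev_Q : ∀ᶠ s : ℝ in 𝓝 0, x.t + s • τ ∈ (b.F p U δ).Q :=
  (by fun_prop : Continuous fun s : ℝ => x.t + s • τ).continuousAt.eventually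
    (H.F.opn.mem_nhds (by simpa using x.ht))

include x in
/-- the base connection moves in a compact set only when the limits are fixed -/
theorem b_hs (h0 : τ.2 = 0) : E.o.b τ ∈ Mod61.Hs (b.F p U δ).F0.toPre E.o.P1 := by
  obtain ⟨s, h2, h3⟩ := (((ev_Q H x (τ := τ)).filter_mono nhdsWithin_le_nhds).and
    (self_mem_nhdsWithin (a := (0 : ℝ)) (s := {0}ᶜ))).exists
  refine Hs_sec H.F.sup ⟨E.o.b τ, (E.o.sb.cb τ trivial).choose_spec.1,
    HasCompactSupport.intro (H.ee.cov' E.R) fun z hz => ?_, E.o.bP τ⟩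
  obtain ⟨i, hi⟩ := mem_iUnion.1 (not_not.1 hz)
  rcases (H.ee.okP i).dich H.F.Om le_rfl with k | k
  · have m := H.eo.mov i ((H.act_iff H.eo.d0 H.eo.d1).1 k)
    have e : E.lm i (x.t + s • τ) = E.lm i x.t := by simp [EC.lm, h0]
    have m' := m _ h2
    unfold EC.lim at m'
    have := b_key H.F (H.ee.okP i) H.eo.R5 (H.eo.lit i) (β := E.lim i x.t) (v := E.v i) h2 x.ht
      (by unfold EC.lim; exact e ▸ m') (m _ x.ht) z hi
    rw [add_sub_cancel_left, map_smul, Pi.smul_apply] at this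
    exact (smul_eq_zero.1 this).resolve_left h3
  · have := E.o.bP τ z
    rw [indicator_of_notMem (k ⟨hi.1, H.eo.R5.trans_lt hi.2⟩)] at this
    rw [← this]
    ext a : 1
    simp [Wz78.idx_apply]

variable (h0 : τ.2 = 0)

/-- the line of parameters with a fixed connection -/
def pa (s : ℝ) (hs : x.t + s • τ ∈ (b.F p U δ).Q) : Pnt E.o r :=
  ⟨x.α - s • E.o.b τ, x.φ, x.z, x.t + s • τ,
    sub_mem x.hα (Submodule.smul_mem _ _ (b_hs H x h0)), x.hφ, hs⟩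

variable (E τ) in
/-- its direction -/
abbrev vv (k : ℕ) : E.o.C r k := (-ofV _ (k + 1) _ (E.o.b τ), 0, 0, τ)

variable {s : ℝ} (hs : x.t + s • τ ∈ (b.F p U δ).Q)

theorem pa_pt {k : ℕ} (hk : 3 ≤ k) : (pa H x h0 s hs).pt k = x.pt k + s • vv E τ k :=
  C_ext H.F hk
    (by rw [Pnt.val_α _ hk, Prod.fst_add, val_add, x.val_α hk, Prod.smul_fst, smul_neg, ← neg_smul,
      val_smul, val_ofV (b_hs H x h0) (by omega), neg_smul]; exact sub_eq_add_neg _ _)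
    (by rw [Pnt.val_φ _ hk, Prod.snd_add, Prod.fst_add, Prod.smul_snd, Prod.smul_fst, smul_zero,
      add_zero, x.val_φ hk]; rfl)
    (Prod.ext ((add_zero _).symm.trans (congrArg _ (smul_zero s).symm)) rfl)

theorem pa_W : (pa H x h0 s hs).cfg.W =
    chA (J.B c) E.o.m (J.G c (b.θ p U x.t)) (J.G c (b.θ p U (x.t + s • τ))) x.cfg.W := by
  refine (W_ch _ _).trans (Eq.trans ?_ (congrArg _ (W_ch x.t x.α).symm))
  refine Eq.trans (congrArg _ (funext fun a => funext fun z => ?_)) (chA_coc _ _ _ _ _ _).symm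
  simp only [pa, Md.addC, Ref.A, map_add, map_smul, map_sub, Pi.add_apply, Pi.sub_apply,
    Pi.smul_apply, PiLp.add_apply, PiLp.sub_apply, PiLp.smul_apply]
  abel

/-- derivatives along the line -/
theorem der_pa {Y : Type} [NormedAddCommGroup Y] [NormedSpace ℝ Y] {k : ℕ} {g : E.o.C r k → Y}
    (hg : ContDiffOn ℝ ∞ g (E.o.U r k)) : HasDerivAt (fun s : ℝ => g (x.pt k + s • vv E τ k))
      (fderiv ℝ g (x.pt k) (vv E τ k)) 0 := Nt66.der_line (isOpen_U H.F) hg x.mem_U _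

theorem der_paC {Y : Type} [NormedAddCommGroup Y] [NormedSpace ℝ Y] {f : E.C → Y}
    (hf : ContDiffOn ℝ ∞ f (E.o.U r 8 ×ˢ univ)) (ψ : E.K) :
    HasDerivAt (fun s : ℝ => f (x.pt 8 + s • vv E τ 8, ψ))
      (fderiv ℝ f (x.pt 8, ψ) (vv E τ 8, 0)) 0 := by
  simpa only [Prod.smul_mk, smul_zero, Prod.mk_add_mk, add_zero] using
    Nt66.der_line (X := E.C) (x := (x.pt 8, ψ)) (Nt66.open_C H.F) hf ⟨x.mem_U, trivial⟩ (vv E τ 8, 0)

include h0 in
/-- the curvature row of the derivative is smooth -/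
theorem vC_hs {f : E.C → E.Y} (hf : E.Map q f) (ψ : E.K) : (b.F p U δ).F0.val 8 E.o.P2
    (fderiv ℝ f (x.pt 8, ψ) (vv E τ 8, 0)).1.2.1 ∈ Mod61.Hs (b.F p U δ).F0.toPre E.o.P2 := by
  intro k hk
  rcases le_total k 8 with e | e
  · exact ⟨_, val_incl H.F.sup hk e _⟩
  obtain ⟨g, g1, g2⟩ := (Map77.adj_rem H.F).rp (H.sm.aff.tot H.F H.sm.sm q) k (by omega)
  refine ⟨(fderiv ℝ g (x.pt k) (vv E τ k)).2.1, funext fun z => ?_⟩
  refine (der_ev (der_pa H x g1) ((b.F p U δ).F0.ev k E.o.P2 z ∘L .fst ℝ _ _ ∘L .snd ℝ _ _)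
    ((ev_Q H x (τ := τ)).mono fun s hs => ?_)).unique (der_ev (der_paC H x hf.sm ψ)
      ((b.F p U δ).F0.ev 8 E.o.P2 z ∘L .fst ℝ _ _ ∘L .snd ℝ _ _ ∘L pY E) (.of_forall fun _ => rfl))
  rw [← pa_pt H x h0 hs (by omega), ← pa_pt H x h0 hs (by norm_num)]
  exact congrFun ((g2 _).C.trans (hf.e _ ψ).C.symm) z

/-- abelian points stay abelian, with the same curvature -/
theorem pa_ab {Ω : Set (W.Z c).M} {ξ : (W.Z c).M → E.o.m.A}
    (a : Ab (J.B c) (J.G c (b.θ p U x.t)) Ω x.cfg ξ) :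
    Ab (J.B c) (J.G c (b.θ p U (x.t + s • τ))) Ω (pa H x h0 s hs).cfg ξ ∧
      xf J c (b.θ p U (x.t + s • τ)) (pa H x h0 s hs).cfg ξ = xf J c (b.θ p U x.t) x.cfg ξ := by
  have k := trn_ab (Λ.B_ok _ _) (H.ok.G_ok H.mem (H.ovx x)) (H.ok.G_ok H.mem (H.ov H.hb hs)) a
  have e := pa_W H x h0 hs
  exact ⟨(congrArg (fun V => Ab (J.B c) (J.G c (b.θ p U (x.t + s • τ))) Ω
    (⟨E.o.m, V, x.cfg.Φ, x.z⟩ : Cfg _ _ _ r) ξ) e).mpr k.1,
    (congrArg (fun V => Abel74.fm (J.G c (b.θ p U (x.t + s • τ))).F E.o.m V ξ) e).trans k.2⟩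

section out
variable {p₀ : Prt A A' h} (hp : J.POK σ c p₀) (h1 : ∀ z ∉ W.un c p₀.P, x.cfg.Φ z = 0)
  (h2 : ∀ s : ℝ, ∀ a ∈ p₀.V, b.θ p U x.t a = b.θ p U (x.t + s • τ) a)
include hp h1 h2

theorem cr : CR0 (J.B c) (J.G c (b.θ p U x.t)) (J.B c) (J.G c (b.θ p U (x.t + s • τ)))
    (W.un c p₀.P) (W.un c p₀.P) id (fun z a i => (J.B c).P a i z) (J.B c).l x.cfg
    (pa H x h0 s hs).cfg E.o.m.p 1 :=
  ⟨x.ad0 H.F, (pa H x h0 s hs).ad0 H.F, h1, h1, (congrArg (fun V => CEq (J.G c (b.θ p U x.t)).F x.cfg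
    (⟨E.o.m, V, x.cfg.Φ, x.z⟩ : Cfg _ _ _ r) (W.un c p₀.P) id (fun z a i => (J.B c).P a i z) (J.B c).l
      E.o.m.p 1) (pa_W H x h0 hs)).mpr (ceq_ch (Λ.B_ok _ _) (H.ok.G_ok H.mem (H.ovx x)) (x.ad0 H.F)
        (hp.agr H.ok H.mem (H.ovx x) (H.ov H.hb hs) (h2 s)))⟩

include h0 in
/-- **the rows outside do not move** -/
theorem rows (h3 : p₀.P ⊆ p.P') {f : E.C → E.Y} (hf : E.Map q f) (ψ : E.K) {e : E.Y}
    (he : e = fderiv ℝ f (x.pt 8, ψ) (vv E τ 8, 0)) :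
    (∀ z ∈ W.un c p₀.P, (b.F p U δ).F0.val 8 E.o.Pm e.1.1 z = 0 ∧
      (b.F p U δ).F0.val 8 E.o.P2 e.1.2.1 z = 0) ∧ e.1.2.2 = 0 ∧ e.2.2 = 0 ∧
      ∀ i : p.H, i.1 ∈ p₀.H → e.2.1 i = 0 := by
  subst he
  have v := ev_Q H x (τ := τ)
  have v0 := v.self_of_nhds
  have key : ∀ {V : Type} [NormedAddCommGroup V] [NormedSpace ℝ V] (L : E.Y →L[ℝ] V),
      (∀ s hs, L (f ((pa H x h0 s hs).pt 8, ψ)) = L (f ((pa H x h0 0 v0).pt 8, ψ))) →
      L (fderiv ℝ f (x.pt 8, ψ) (vv E τ 8, 0)) = 0 := fun L k =>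
    der_cst (der_paC H x hf.sm ψ) L (v.mono fun s hs => by
      rw [← pa_pt H x h0 hs (by norm_num)]; exact k s hs)
  have o := fun (s : ℝ) (hs : x.t + s • τ ∈ (b.F p U δ).Q) => H.ov H.hb hs
  have g := fun s hs => hp.kt2 H.ok H.mem (H.ovx x) (o s hs) (h2 s)
  have t := fun s hs => hp.t_rel H.ok H.mem (H.ovx x) (o s hs) (h2 s) q
  have k := fun s hs => cr H x h0 (s := s) hs hp h1 h2
  have u := fun s hs => tot_ev (b := b) (U := U) (δ := δ) (t := x.t + s • τ) (q := q)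
    (pa H x h0 s hs).cfg
  have s1 : W.un c p₀.P ⊆ W.un c p.P' := biUnion_subset_biUnion_left h3
  refine ⟨fun z hz => ⟨?_, ?_⟩, ?_, key (.snd ℝ _ _ ∘L pK E) fun s hs =>
    (funext (hf.nrm _ ψ)).trans (funext (hf.nrm _ ψ)).symm, fun i hi => ?_⟩
  · have a := fun s hs => (congrFun (hf.e (pa H x h0 s hs) ψ).D z).trans
      ((indicator_of_mem (s1 hz) _).trans (((u s hs).1 z).trans
        ((t s hs).eD (g s hs).toLG (k s hs) hz)))
    exact key ((b.F p U δ).F0.ev 8 E.o.Pm z ∘L .fst ℝ _ _ ∘L pY E) fun s hs =>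
      (a s hs).trans (a 0 v0).symm
  · have a := fun s hs => (congrFun (hf.e (pa H x h0 s hs) ψ).C z).trans
      ((indicator_of_mem (un_sub H.pok (s1 hz)) _).trans (((u s hs).2.1 z).trans
        ((t s hs).eC (g s hs).toLG (k s hs) hz)))
    exact key ((b.F p U δ).F0.ev 8 E.o.P2 z ∘L .fst ℝ _ _ ∘L .snd ℝ _ _ ∘L pY E) fun s hs =>
      (a s hs).trans (a 0 v0).symm
  · have a := fun s hs => (hf.e (pa H x h0 s hs) ψ).S.trans (funext fun i =>
      ((u s hs).2.2.1 i).trans (congrArg _ ((t s hs).S (k s hs) i)))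
    have a' := fun s hs => (hf.e (pa H x h0 s hs) ψ).R.trans (u s hs).2.2.2
    exact key (.snd ℝ _ _ ∘L .snd ℝ _ _ ∘L pY E) fun s hs =>
      Prod.ext ((a s hs).trans (a 0 v0).symm) ((a' s hs).trans (a' 0 v0).symm)
  · have R := Cnt93.rel_refl (Λ.B_ok J.m c) (H.ok.cut_sub (c := c) (hp.nb i hi))
    have l := fun s hs => (g s hs).toLG.of_ceq (k s hs).adm (k s hs).adm' (k s hs).e
    obtain ⟨η, hη⟩ := (Cnt93.eqv_iff (l 0 v0) R).1 (Cnt93.eqv_refl E.o.ok (ψ i))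
    have a := fun s hs => (hf.row (pa H x h0 s hs) ψ i).trans ((congrArg _ hη).trans
      (congrArg₂ (· - ·) (Cnt93.T_nat (l s hs) R η (H.cut_ok H.hb x.ht i) (H.cut_ok H.hb hs i) _)
        (hp.sc_rel H.ok H.mem (H.ovx x) (o s hs) (h2 s) hi q (k s hs) η _)))
    exact key (pI E i ∘L .fst ℝ _ _ ∘L pK E) fun s hs => (a s hs).trans (a 0 v0).symm

end out

end Crest.Agent.X212.Lt56
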